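import Vale.Agent.P337.Main

open Vale.Agent.P337

theorem Vale.Agent.Results.P337.A_full.result : ETR ∈ ⋃ j : ℕ, Level j :=
  Set.mem_iUnion.2 etr_mem
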